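import Vale.Agent.P083.Main
import Vale.Agent.P083.Endgame
import Vale.Agent.P083.Statement

/-!
# P083: Kirchberg's embedding problem has a negative answer
-/

open Vale.P083

namespace Vale.Agent.Results.P083.KirchbergEmbedding

theorem result :
    (∃ (H : Type) (_ : NormedAddCommGroup H) (_ : InnerProductSpace ℂ H) (_ : CompleteSpace H),
      Nontrivial H ∧ TopologicalSpace.SeparableSpace H ∧
      ∃ s₁ s₂ : H →L[ℂ] H, CuntzRelations s₁ s₂) ∧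
    ∃ (A : Type) (_ : CStarAlgebra A), TopologicalSpace.SeparableSpace A ∧ Nontrivial A ∧
      ∀ (H : Type) [NormedAddCommGroup H] [InnerProductSpace ℂ H] [CompleteSpace H] [Nontrivial H]
        (s₁ s₂ : H →L[ℂ] H), CuntzRelations s₁ s₂ →
        ∀ (ω : Ultrafilter ℕ) (φ : A → ℕ → (H →L[ℂ] H)),
          ¬ IsUltrapowerHomLift (genAlgebra s₁ s₂) ω φ := by
  obtain ⟨⟨H, i₁, i₂, i₃, hn, hs, s₁, s₂, e₁, e₂, e₃⟩, A, iA, hA, hA', hno⟩ :=
    no_hom_of_endgame (endgame Gap.gapExact grelLevel orbit)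
  refine ⟨⟨H, i₁, i₂, i₃, hn, hs, s₁, s₂, e₁, e₂, e₃⟩, A, iA, hA, hA', ?_⟩
  rintro K _ _ _ _ t₁ t₂ ⟨f₁, f₂, f₃⟩ ω φ ⟨hmem, hb, h1, h2, h3, h4, h5⟩
  exact hno K t₁ t₂ f₁ f₂ f₃ ω φ hmem hb h1 h2 h3 h4 h5

end Vale.Agent.Results.P083.KirchbergEmbedding
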